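import Vale.Agent.P322.Info

/-!
# P322: the Courtade-Kumar inequality

`X` is uniform on `{-1,1}^n` (`ℤˣ = {1,-1}`), `Z` is the vector of independent noise signs with
`P(Z_i = -1) = ε`, `Y = X Z` coordinatewise.  For every Boolean function `f`,
`I(f(X);Y) ≤ 1 - h₂(ε)` for all `ε ∈ [0,1/2]`.
-/

namespace Vale.Agent.Results.P322.CourtadeKumar
open Vale.Agent.P322

theorem result (n : ℕ) (f : (Fin n → ℤˣ) → ℤˣ) (ε : ℝ) (h0 : 0 ≤ ε) (h1 : ε ≤ 1 / 2) :
    mutualInfoBits (bscWeight ε)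
      (fun ω : (Fin n → ℤˣ) × (Fin n → ℤˣ) => f ω.1) (fun ω => ω.1 * ω.2) ≤ 1 - h2 ε := by
  rw [mutualInfo_eq h0 h1 f, one_sub_h2 h0 h1]
  have hl2 : 0 < Real.log 2 := Real.log_pos (by norm_num)
  apply div_le_div_of_nonneg_right _ hl2.le
  exact analytic_ck (fun x => sg (f x)) (fun x => sg_eq (f x)) (by linarith) (by linarith)

end Vale.Agent.Results.P322.CourtadeKumar
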