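import Vale.Agent.P322.Info

/-!
# P322: the Courtade-Kumar inequality, with the equality case of the coordinates

`X` is uniform on `{-1,1}^n` (`ℤˣ = {1,-1}`), `Z` is the vector of independent noise signs with
`P(Z_i = -1) = ε`, `Y = X Z` coordinatewise.  For every Boolean function `f` and every
`ε ∈ [0,1/2]`, `I(f(X);Y) ≤ 1 - h₂(ε)`; every coordinate function attains the bound, so no Boolean
function carries more information about `Y` than a single coordinate.
-/

namespace Vale.Agent.Results.P322.MostInformative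
open Vale.Agent.P322

theorem TT_coord {n : ℕ} (ρ : ℝ) (i : Fin n) (y : Cube n) :
    TT ρ (fun x => sg (x i)) y = ρ * sg (y i) := by
  unfold TT
  have h := Finset.prod_univ_sum (fun _ : Fin n => (Finset.univ : Finset ℤˣ))
    (fun j u => ((1 + ρ * sg (y j) * sg u) / 2) * (if j = i then sg u else 1))
  rw [Fintype.piFinset_univ] at h
  have e : ∀ x : Cube n, (∏ j, (1 + ρ * sg (y j) * sg (x j)) / 2) * sg (x i) =
      ∏ j, ((1 + ρ * sg (y j) * sg (x j)) / 2) * (if j = i then sg (x j) else 1) := by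
    intro x
    rw [Finset.prod_mul_distrib]
    congr 1
    rw [Finset.prod_ite_eq' Finset.univ i]
    simp
  rw [Finset.sum_congr rfl fun x _ => e x, ← h]
  rw [Finset.prod_eq_single i]
  · rw [NoiseAux.sum_units, NoiseAux.sg_neg, NoiseAux.sg_one]
    simp
    ring
  · intro j _ hj
    rw [NoiseAux.sum_units, NoiseAux.sg_neg, NoiseAux.sg_one]
    simp [hj]
    ring
  · intro hi
    exact absurd (Finset.mem_univ i) hi

theorem avg_coord {n : ℕ} (i : Fin n) : avg (fun x : Cube n => sg (x i)) = 0 := by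
  have h1 := TT_zero (fun x : Cube n => sg (x i)) (fun _ => 1)
  rw [TT_coord] at h1
  rw [← h1]
  simp

theorem info_coord {n : ℕ} {ε : ℝ} (h0 : 0 ≤ ε) (h1 : ε ≤ 1 / 2) (i : Fin n) :
    mutualInfoBits (bscWeight ε)
      (fun ω : (Fin n → ℤˣ) × (Fin n → ℤˣ) => ω.1 i) (fun ω => ω.1 * ω.2) = 1 - h2 ε := by
  have h := mutualInfo_eq h0 h1 (fun x : Fin n → ℤˣ => x i)
  refine h.trans ?_
  rw [one_sub_h2 h0 h1, avg_coord, phi_zero, sub_zero]
  congr 1
  have e : ∀ y : Cube n, phi (TT (1 - 2 * ε) (fun x => sg (x i)) y) = phi (1 - 2 * ε) := by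
    intro y
    rw [TT_coord]
    rcases sg_eq (y i) with hh | hh <;> rw [hh]
    · rw [mul_one]
    · rw [mul_neg, mul_one, phi_neg]
  rw [avg_congr e, avg_const]

theorem result (n : ℕ) (ε : ℝ) (h0 : 0 ≤ ε) (h1 : ε ≤ 1 / 2) :
    (∀ f : (Fin n → ℤˣ) → ℤˣ, mutualInfoBits (bscWeight ε)
      (fun ω : (Fin n → ℤˣ) × (Fin n → ℤˣ) => f ω.1) (fun ω => ω.1 * ω.2) ≤ 1 - h2 ε) ∧
    (∀ i : Fin n, mutualInfoBits (bscWeight ε)
      (fun ω : (Fin n → ℤˣ) × (Fin n → ℤˣ) => ω.1 i) (fun ω => ω.1 * ω.2) = 1 - h2 ε) := by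
  refine ⟨fun f => ?_, fun i => info_coord h0 h1 i⟩
  rw [mutualInfo_eq h0 h1 f, one_sub_h2 h0 h1]
  have hl2 : 0 < Real.log 2 := Real.log_pos (by norm_num)
  apply div_le_div_of_nonneg_right _ hl2.le
  exact analytic_ck (fun x => sg (f x)) (fun x => sg_eq (f x)) (by linarith) (by linarith)

end Vale.Agent.Results.P322.MostInformative
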